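import Vale.Agent.Lib.P069.Main3

namespace Vale.Agent.Results.P069.ModuliInfSupInf

open Vale.Agent.Lib.P069

/-- There is a reflexive, infinite-dimensional real Banach space `X` whose norm has positive
midpoint modulus `m(t)` for every `t > 0`, while every equivalent norm `N` on `X` has
`δ̄_N(t) ≤ 0` for some `t > 0` (so is not AUC). The moduli are the inf-sup-inf expressions of
the problem, with values in the extended reals. -/
theorem result :
    ∃ (X : Type) (_ : NormedAddCommGroup X) (_ : NormedSpace ℝ X),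
      CompleteSpace X ∧ ¬ FiniteDimensional ℝ X ∧
      Function.Surjective (NormedSpace.inclusionInDoubleDual ℝ X) ∧
      (∀ t : ℝ, 0 < t → 0 < midBar (fun x : X => ‖x‖) t) ∧
      ∀ N : Seminorm ℝ X, (∃ c C : ℝ, 0 < c ∧ ∀ x, c * ‖x‖ ≤ N x ∧ N x ≤ C * ‖x‖) →
        ¬ ∀ t : ℝ, 0 < t → 0 < deltaBar N t :=
  main_counterexample_moduli

end Vale.Agent.Results.P069.ModuliInfSupInf
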