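import Vale.Agent.Lib.P069.Main

namespace Vale.Agent.Results.P069.ReflexiveAmucNotAuc

open Vale.Agent.Lib.P069

/-- There is a reflexive, infinite-dimensional real Banach space whose norm is asymptotically
midpoint uniformly convex, but on which no equivalent norm is asymptotically uniformly convex. -/
theorem result :
    ∃ (X : Type) (_ : NormedAddCommGroup X) (_ : NormedSpace ℝ X),
      CompleteSpace X ∧ ¬ FiniteDimensional ℝ X ∧
      Function.Surjective (NormedSpace.inclusionInDoubleDual ℝ X) ∧
      IsAMUC (fun x : X => ‖x‖) ∧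
      ∀ N : Seminorm ℝ X, (∃ c C : ℝ, 0 < c ∧ ∀ x, c * ‖x‖ ≤ N x ∧ N x ≤ C * ‖x‖) →
        ¬ IsAUC N :=
  main_counterexample

end Vale.Agent.Results.P069.ReflexiveAmucNotAuc
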