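import Vale.Agent.Lib.P069.Main2

namespace Vale.Agent.Results.P069.SeparablePowerTypeTwo

open Vale.Agent.Lib.P069

/-- There is a separable, reflexive, infinite-dimensional real Banach space whose norm is
asymptotically midpoint uniformly convex with a modulus of power type 2
(`m(t) ≥ sqrt (1 + t^2/64) - 1`), but on which no equivalent norm is asymptotically
uniformly convex. -/
theorem result :
    ∃ (X : Type) (_ : NormedAddCommGroup X) (_ : NormedSpace ℝ X),
      CompleteSpace X ∧ TopologicalSpace.SeparableSpace X ∧ ¬ FiniteDimensional ℝ X ∧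
      Function.Surjective (NormedSpace.inclusionInDoubleDual ℝ X) ∧
      IsAMUC (fun x : X => ‖x‖) ∧
      (∀ t : ℝ, 0 < t → ∀ x : X, ‖x‖ = 1 →
        ∃ F : Submodule ℝ X, IsClosed (F : Set X) ∧ FiniteDimensional ℝ (X ⧸ F) ∧
          ∀ y ∈ F, ‖y‖ = 1 → Real.sqrt (1 + t ^ 2 / 64) ≤ max ‖x + t • y‖ ‖x - t • y‖) ∧
      ∀ N : Seminorm ℝ X, (∃ c C : ℝ, 0 < c ∧ ∀ x, c * ‖x‖ ≤ N x ∧ N x ≤ C * ‖x‖) →
        ¬ IsAUC N :=
  main_counterexample_strong

end Vale.Agent.Results.P069.SeparablePowerTypeTwo
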